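import Mathlib

/-! P038 (helper268): self-contained unweighted proof of Seymour's second neighbourhood
conjecture, part 1: closed neighbourhoods, submodularity, 294's deletion lemma (G). -/

namespace Vale.Agent.P038.H268

open Finset

set_option linter.unusedSectionVars false

variable {V : Type*} [Fintype V] [DecidableEq V]

/-- closed out-neighbourhood of a vertex. -/
def cl (o : V → Finset V) (a : V) : Finset V := insert a (o a)

/-- closed out-neighbourhood of a set. -/
def N (o : V → Finset V) (S : Finset V) : Finset V := S.biUnion (cl o)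

/-- oriented: no loops, no 2-cycles. -/
def Ori (o : V → Finset V) : Prop := ∀ a b, b ∈ o a → a ∉ cl o b

/-- outer boundary of a set. -/
def h (o : V → Finset V) (S : Finset V) : ℤ := ((N o S).card : ℤ) - S.card

lemma mem_cl {o : V → Finset V} {a b : V} : b ∈ cl o a ↔ b = a ∨ b ∈ o a := by
  simp [cl]

lemma self_mem_cl (o : V → Finset V) (a : V) : a ∈ cl o a := by simp [cl]

lemma mem_N {o : V → Finset V} {S : Finset V} {u : V} : u ∈ N o S ↔ ∃ a ∈ S, u ∈ cl o a := by
  simp [N]

lemma subset_N (o : V → Finset V) (S : Finset V) : S ⊆ N o S := fun a ha =>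
  mem_N.2 ⟨a, ha, self_mem_cl o a⟩

lemma N_mono (o : V → Finset V) {S T : Finset V} (h : S ⊆ T) : N o S ⊆ N o T := fun u hu => by
  obtain ⟨a, ha, hu⟩ := mem_N.1 hu
  exact mem_N.2 ⟨a, h ha, hu⟩

lemma N_union (o : V → Finset V) (S T : Finset V) : N o (S ∪ T) = N o S ∪ N o T := by
  ext u; simp only [mem_N, mem_union]; constructor
  · rintro ⟨a, ha | ha, hu⟩
    · exact Or.inl ⟨a, ha, hu⟩
    · exact Or.inr ⟨a, ha, hu⟩
  · rintro (⟨a, ha, hu⟩ | ⟨a, ha, hu⟩)
    · exact ⟨a, Or.inl ha, hu⟩
    · exact ⟨a, Or.inr ha, hu⟩

lemma h_nonneg (o : V → Finset V) (S : Finset V) : 0 ≤ h o S := by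
  have := card_le_card (subset_N o S)
  unfold h; omega

lemma h_submod (o : V → Finset V) (S T : Finset V) :
    h o (S ∪ T) + h o (S ∩ T) ≤ h o S + h o T := by
  have h1 : (N o (S ∪ T)).card + (N o (S ∩ T)).card ≤ (N o S).card + (N o T).card := by
    rw [N_union, ← card_union_add_card_inter (N o S) (N o T)]
    gcongr
    intro u hu
    exact mem_inter.2 ⟨N_mono o inter_subset_left hu, N_mono o inter_subset_right hu⟩
  have h2 := card_union_add_card_inter S T
  unfold h; omega

/-- `f` value of a row: positive for every vertex in a counterexample. -/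
def Fv (o : V → Finset V) (v : V) : ℤ := 2 * ((o v).card : ℤ) - (N o (o v)).card

/-- counterexample -/
def CE (o : V → Finset V) : Prop := Ori o ∧ ∀ v, 0 < Fv o v

/-- 294's deletion lemma in a counterexample with the fewest arcs. -/
lemma plan {o : V → Finset V} (ho : CE o)
    (hmin : ∀ o' : V → Finset V, CE o' → (∑ v, (o v).card) ≤ ∑ v, (o' v).card)
    (X : Finset V) (hX : N o X ≠ X) : h o (N o X) < h o X := by
  classical
  set L := N o X \ X with hL
  have hLne : L.Nonempty := by
    rw [nonempty_iff_ne_empty]
    intro he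
    apply hX
    apply Subset.antisymm _ (subset_N o X)
    exact sdiff_eq_empty_iff_subset.1 he
  by_contra hcon
  push Not at hcon
  -- d(T)
  let d : Finset V → ℤ := fun T => ((N o T \ X).card : ℤ) - 2 * T.card
  have hd0 : d ∅ = 0 := by simp [d, N]
  have hNL : N o L \ X = N o (N o X) \ X := by
    ext u
    simp only [mem_sdiff]
    constructor
    · rintro ⟨h1, h2⟩
      exact ⟨N_mono o sdiff_subset h1, h2⟩
    · rintro ⟨h1, h2⟩
      refine ⟨?_, h2⟩
      by_cases huN : u ∈ N o X
      · exact subset_N o L (mem_sdiff.2 ⟨huN, h2⟩)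
      · obtain ⟨a, ha, hu⟩ := mem_N.1 h1
        refine mem_N.2 ⟨a, mem_sdiff.2 ⟨ha, ?_⟩, hu⟩
        intro haX
        exact huN (mem_N.2 ⟨a, haX, hu⟩)
  have hdL : 0 ≤ d L := by
    have e1 : ((N o L \ X).card : ℤ) = (N o (N o X)).card - X.card := by
      rw [hNL]
      have hsub : X ⊆ N o (N o X) := (subset_N o X).trans (subset_N o _)
      rw [card_sdiff_of_subset hsub, Nat.cast_sub (card_le_card hsub)]
    have e2 : (L.card : ℤ) = (N o X).card - X.card := by
      rw [hL, card_sdiff_of_subset (subset_N o X), Nat.cast_sub (card_le_card (subset_N o X))]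
    simp only [d]
    unfold h at hcon
    rw [e1, e2]; linarith
  -- T: minimiser of d among proper subsets of L
  have hne : (L.ssubsets).Nonempty := ⟨∅, mem_ssubsets.2 (by
    rw [ssubset_iff_subset_ne]; exact ⟨empty_subset _, fun h => by simp [← h] at hLne⟩)⟩
  obtain ⟨T, hT, hTmin⟩ := exists_min_image L.ssubsets d hne
  have hTL : T ⊂ L := mem_ssubsets.1 hT
  have hdT0 : d T ≤ 0 := by
    rw [← hd0]; exact hTmin ∅ (mem_ssubsets.2 (by
      rw [ssubset_iff_subset_ne]; exact ⟨empty_subset _, fun h => by simp [← h] at hLne⟩))
  have hTall : ∀ T' ⊆ L, d T ≤ d T' := by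
    intro T' hT'
    rcases eq_or_ne T' L with rfl | hne'
    · linarith
    · exact hTmin T' (mem_ssubsets.2 (Finset.ssubset_iff_subset_ne.2 ⟨hT', hne'⟩))
  -- new digraph
  let o' : V → Finset V := fun y => if y ∈ X then o y ∩ (X ∪ T) else o y
  have ho'sub : ∀ y, o' y ⊆ o y := by
    intro y; by_cases hy : y ∈ X
    · simp only [o', if_pos hy]; exact inter_subset_left
    · simp only [o', if_neg hy]; exact Subset.refl _
  have hcl' : ∀ y, cl o' y ⊆ cl o y := by
    intro y u hu
    rcases mem_cl.1 hu with h | h
    · exact mem_cl.2 (Or.inl h)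
    · exact mem_cl.2 (Or.inr (ho'sub y h))
  have hN' : ∀ S, N o' S ⊆ N o S := by
    intro S u hu
    obtain ⟨a, ha, hu⟩ := mem_N.1 hu
    exact mem_N.2 ⟨a, ha, hcl' a hu⟩
  have hCE' : CE o' := by
    refine ⟨?_, ?_⟩
    · intro a b hb hab
      exact ho.1 a b (ho'sub a hb) (hcl' b hab)
    · intro y
      by_cases hy : y ∈ X
      · have hyo : o' y = o y ∩ (X ∪ T) := by simp only [o', if_pos hy]
        set Dy := o y \ (X ∪ T) with hDy
        have hDL : Dy ⊆ L := by
          intro z hz
          rw [hDy, mem_sdiff, mem_union] at hz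
          push Not at hz
          exact mem_sdiff.2 ⟨mem_N.2 ⟨y, hy, mem_cl.2 (Or.inr hz.1)⟩, hz.2.1⟩
        have hTD : Disjoint T Dy := by
          rw [disjoint_left]; intro z hz hz'
          rw [hDy, mem_sdiff, mem_union] at hz'
          exact hz'.2 (Or.inr hz)
        have hm := hTall (T ∪ Dy) (union_subset hTL.1 hDL)
        set E := N o Dy \ (N o T ∪ X) with hE
        have hc1 : (N o (T ∪ Dy) \ X).card = (N o T \ X).card + E.card := by
          rw [← card_union_of_disjoint]
          · congr 1
            ext u
            simp only [N_union, hE, mem_sdiff, mem_union]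
            tauto
          · rw [disjoint_left]
            intro u hu hu'
            simp only [hE, mem_sdiff, mem_union] at hu hu'
            exact hu'.2 (Or.inl hu.1)
        have hc2 : (T ∪ Dy).card = T.card + Dy.card := card_union_of_disjoint hTD
        have hEge : 2 * (Dy.card : ℤ) ≤ E.card := by
          simp only [d] at hm
          rw [hc1, hc2] at hm
          push_cast at hm
          linarith
        -- new ball
        have hball : N o' (o' y) ⊆ X ∪ N o T := by
          intro u hu
          obtain ⟨a, ha, hu⟩ := mem_N.1 hu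
          rw [hyo, mem_inter, mem_union] at ha
          rw [mem_union]
          by_cases haX : a ∈ X
          · rcases mem_cl.1 hu with h1 | h1
            · subst h1; exact Or.inl haX
            · simp only [o', if_pos haX, mem_inter, mem_union] at h1
              rcases h1.2 with h2 | h2
              · exact Or.inl h2
              · exact Or.inr (subset_N o T h2)
          · have haT : a ∈ T := by tauto
            exact Or.inr (mem_N.2 ⟨a, haT, hcl' a hu⟩)
        have hball2 : N o' (o' y) ⊆ N o (o y) := (hN' _).trans (N_mono o (ho'sub y))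
        have hEsub : E ⊆ N o (o y) := by
          rw [hE]
          exact sdiff_subset.trans (N_mono o (by rw [hDy]; exact sdiff_subset))
        have hdisj : Disjoint (N o' (o' y)) E := by
          rw [disjoint_left]
          intro u hu hu'
          have := hball hu
          simp only [hE, mem_sdiff, mem_union] at this hu'
          tauto
        have hcard : (N o' (o' y)).card + E.card ≤ (N o (o y)).card := by
          rw [← card_union_of_disjoint hdisj]
          exact card_le_card (union_subset hball2 hEsub)
        have hoy : ((o' y).card : ℤ) = (o y).card - Dy.card := by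
          have : (o' y).card + Dy.card = (o y).card := by
            rw [hyo, hDy, card_inter_add_card_sdiff]
          omega
        have hF := ho.2 y
        unfold Fv at hF ⊢
        rw [hoy]
        omega
      · have hyo : o' y = o y := by simp only [o', if_neg hy]
        have hF := ho.2 y
        unfold Fv at hF ⊢
        rw [hyo]
        have := card_le_card (hN' (o y))
        omega
  have hlt : ∑ v, (o' v).card < ∑ v, (o v).card := by
    obtain ⟨z, hzL, hzT⟩ := exists_of_ssubset hTL
    have hz := mem_sdiff.1 hzL
    obtain ⟨y, hy, hzy⟩ := mem_N.1 hz.1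
    have hzo : z ∈ o y := by
      rcases mem_cl.1 hzy with h1 | h1
      · subst h1; exact absurd hy hz.2
      · exact h1
    apply sum_lt_sum (fun v _ => card_le_card (ho'sub v))
    refine ⟨y, mem_univ y, card_lt_card (Finset.ssubset_iff_subset_ne.2 ⟨ho'sub y, ?_⟩)⟩
    intro he
    rw [← he] at hzo
    simp only [o', if_pos hy, mem_inter, mem_union] at hzo
    rcases hzo.2 with h1 | h1
    · exact hz.2 h1
    · exact hzT h1
  exact absurd (hmin o' hCE') (not_le.2 hlt)

end Vale.Agent.P038.H268
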