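import Vale.Agent.P038.H268.Star

/-! P038 (helper268), part 3: `m1 ≤ m2`, the glue with (G), and Seymour's second
neighbourhood conjecture. -/

namespace Vale.Agent.P038.H268

open Finset

set_option linter.unusedSectionVars false

variable {V : Type*} [Fintype V] [DecidableEq V]

/-- inner (compatible) pairs -/
structure Inner (o : V → Finset V) (X Y : V → Finset V) : Prop where
  selfX : ∀ a, a ∈ X a
  selfY : ∀ a, a ∈ Y a
  orth : ∀ a b, a ≠ b → b ∈ N o (X a) → a ∉ N o (Y b)

/-- inner cost -/
def IC (o : V → Finset V) (X Y : V → Finset V) : ℤ := ∑ a, h o (X a) + ∑ b, h o (Y b)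

/-- double counting of the complement of a family, with the diagonal added. -/
lemma dcount (F : V → Finset V) :
    ∑ x, ((univ.filter fun z => x ∉ F z).card : ℤ) =
      (Fintype.card V : ℤ) * Fintype.card V - ∑ z, ((F z).card : ℤ) := by
  classical
  have h1 : ∑ x, ((univ.filter fun z => x ∉ F z).card : ℤ) =
      ∑ z, ((univ.filter fun x => x ∉ F z).card : ℤ) := by
    simp only [card_filter, Nat.cast_sum]
    exact sum_comm
  rw [h1]
  have h2 : ∀ z, ((univ.filter fun x => x ∉ F z).card : ℤ) =
      (Fintype.card V : ℤ) - (F z).card := by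
    intro z
    have : (univ.filter fun x => x ∉ F z) = univ \ F z := by
      ext x; simp
    rw [this, card_sdiff_of_subset (subset_univ _), Nat.cast_sub (card_le_card (subset_univ _)),
      card_univ]
  rw [sum_congr rfl (fun z _ => h2 z), sum_sub_distrib, sum_const, card_univ, nsmul_eq_mul]

/-- the candidate inner pair of an optimal outer pair. -/
lemma cand {o : V → Finset V} {B U : V → Finset V} (hv : Valid o B U)
    (hopt : ∀ B' U', Valid o B' U' → G o B U ≤ G o B' U') :
    ∃ X Y, Inner o X Y ∧ IC o X Y ≤ G o B U := by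
  classical
  let X : V → Finset V := fun z => meet o B z
  let Y : V → Finset V := fun x => insert x (univ.filter fun z => x ∉ N o (U z))
  have hUself : ∀ a, a ∈ U a := fun a => hv.sub a (hv.cl_sub a (self_mem_cl o a))
  refine ⟨X, Y, ⟨fun a => ?_, fun a => mem_insert_self _ _, fun a b hab hb ha => ?_⟩, ?_⟩
  · exact mem_meet.2 fun y hy => hv.cl_sub y hy
  · obtain ⟨x, hx, hbx⟩ := mem_N.1 hb
    obtain ⟨z, hz, haz⟩ := mem_N.1 ha
    have hx' : ∀ y, a ∈ cl o y → x ∈ B y := mem_meet.1 hx
    rcases mem_insert.1 hz with rfl | hz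
    · have hao : a ∈ o z := by
        rcases mem_cl.1 haz with h | h
        · exact absurd h hab
        · exact h
      rcases mem_cl.1 hbx with h | h
      · subst h
        exact hv.norev z a hao (hv.sub a (hx' a (self_mem_cl o a)))
      · exact hv.norev x z h (hv.sub z (hx' z haz))
    · exact (mem_filter.1 hz).2 (mem_N.2 ⟨x, hv.sub z (hx' z haz), hbx⟩)
  · have hg := gap hv hopt
    have hY1 : ∑ x, ((Y x).card : ℤ) = Fintype.card V +
        ((Fintype.card V : ℤ) * Fintype.card V - ∑ z, ((N o (U z)).card : ℤ)) := by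
      rw [← dcount (fun z => N o (U z))]
      have : ∀ x, ((Y x).card : ℤ) = 1 + ((univ.filter fun z => x ∉ N o (U z)).card : ℤ) := by
        intro x
        have hx : x ∉ univ.filter fun z => x ∉ N o (U z) := by
          simp only [mem_filter, mem_univ, true_and, not_not]
          exact subset_N o _ (hUself x)
        simp only [Y]
        rw [card_insert_of_notMem hx]; push_cast; ring
      rw [sum_congr rfl (fun x _ => this x), sum_add_distrib]
      simp
    have hY2 : ∑ x, ((N o (Y x)).card : ℤ) ≤ Fintype.card V +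
        ((Fintype.card V : ℤ) * Fintype.card V - ∑ z, ((N o (meet o U z)).card : ℤ)) := by
      rw [← dcount (fun z => N o (meet o U z))]
      have : ∀ x, ((N o (Y x)).card : ℤ) ≤
          1 + ((univ.filter fun z => x ∉ N o (meet o U z)).card : ℤ) := by
        intro x
        have hsub : N o (Y x) ⊆ insert x (univ.filter fun z => x ∉ N o (meet o U z)) := by
          intro z hz
          by_cases hzx : z = x
          · exact mem_insert.2 (Or.inl hzx)
          · refine mem_insert_of_mem (mem_filter.2 ⟨mem_univ _, fun hcon => ?_⟩)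
            obtain ⟨y, hy, hzy⟩ := mem_N.1 hz
            obtain ⟨u, hu, hxu⟩ := mem_N.1 hcon
            have hu' : ∀ a, z ∈ cl o a → u ∈ U a := mem_meet.1 hu
            rcases mem_insert.1 hy with rfl | hy
            · have hzo : z ∈ o y := by
                rcases mem_cl.1 hzy with h | h
                · exact absurd h hzx
                · exact h
              rcases mem_cl.1 hxu with h | h
              · subst h
                exact hv.norev y z hzo (hu' z (self_mem_cl o z))
              · exact hv.norev u y h (hu' y hzy)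
            · exact (mem_filter.1 hy).2 (mem_N.2 ⟨u, hu' y hzy, hxu⟩)
        have h1 := card_le_card hsub
        have h2 := card_insert_le x (univ.filter fun z => x ∉ N o (meet o U z))
        omega
      calc ∑ x, ((N o (Y x)).card : ℤ) ≤
            ∑ x, (1 + ((univ.filter fun z => x ∉ N o (meet o U z)).card : ℤ)) :=
            sum_le_sum fun x _ => this x
        _ = _ := by rw [sum_add_distrib]; simp
    have e1 : ∑ b, h o (Y b) = ∑ b, ((N o (Y b)).card : ℤ) - ∑ b, ((Y b).card : ℤ) := by
      rw [← sum_sub_distrib]; rfl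
    have e2 : ∑ b, h o (U b) = ∑ b, ((N o (U b)).card : ℤ) - ∑ b, ((U b).card : ℤ) := by
      rw [← sum_sub_distrib]; rfl
    have e3 : ∑ b, h o (meet o U b) = ∑ b, ((N o (meet o U b)).card : ℤ)
        - ∑ b, ((meet o U b).card : ℤ) := by
      rw [← sum_sub_distrib]; rfl
    have e4 : ∑ a, h o (X a) = ∑ a, h o (meet o B a) := rfl
    unfold IC G
    rw [e1, e4]
    rw [e2, e3] at hg
    linarith

/-- shift: an inner pair gives an outer pair, cost at most the shifted inner cost. -/
lemma shift {o : V → Finset V} (ho : Ori o) {X Y : V → Finset V} (hI : Inner o X Y) :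
    ∃ B U, Valid o B U ∧ G o B U ≤ ∑ a, h o (N o (X a)) + ∑ b, h o (N o (Y b)) := by
  classical
  let B : V → Finset V := fun a => N o (X a)
  let U : V → Finset V := fun a => insert a (univ.filter fun b => a ∉ N o (Y b))
  have hclB : ∀ a, cl o a ⊆ B a := fun a u hu => mem_N.2 ⟨a, hI.selfX a, hu⟩
  have hBU : ∀ a, B a ⊆ U a := by
    intro a b hb
    by_cases hab : b = a
    · exact mem_insert.2 (Or.inl hab)
    · exact mem_insert_of_mem (mem_filter.2 ⟨mem_univ _, hI.orth a b (Ne.symm hab) hb⟩)
  have hv : Valid o B U := by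
    refine ⟨hclB, hBU, fun y a hya hy => ?_⟩
    rcases mem_insert.1 hy with rfl | hy
    · exact ho y y hya (self_mem_cl o y)
    · exact (mem_filter.1 hy).2 (mem_N.2 ⟨y, hI.selfY y, mem_cl.2 (Or.inr hya)⟩)
  refine ⟨B, U, hv, ?_⟩
  have hU1 : ∑ a, ((U a).card : ℤ) = Fintype.card V +
      ((Fintype.card V : ℤ) * Fintype.card V - ∑ z, ((N o (Y z)).card : ℤ)) := by
    rw [← dcount (fun z => N o (Y z))]
    have : ∀ x, ((U x).card : ℤ) = 1 + ((univ.filter fun z => x ∉ N o (Y z)).card : ℤ) := by
      intro x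
      have hx : x ∉ univ.filter fun z => x ∉ N o (Y z) := by
        simp only [mem_filter, mem_univ, true_and, not_not]
        exact subset_N o _ (hI.selfY x)
      simp only [U]
      rw [card_insert_of_notMem hx]; push_cast; ring
    rw [sum_congr rfl (fun x _ => this x), sum_add_distrib]
    simp
  have hU2 : Fintype.card V +
      ((Fintype.card V : ℤ) * Fintype.card V - ∑ z, ((N o (N o (Y z))).card : ℤ)) ≤
        ∑ z, ((meet o U z).card : ℤ) := by
    rw [← dcount (fun z => N o (N o (Y z)))]
    have : ∀ z, 1 + ((univ.filter fun b => z ∉ N o (N o (Y b))).card : ℤ) ≤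
        ((meet o U z).card : ℤ) := by
      intro z
      have hz : z ∉ univ.filter fun b => z ∉ N o (N o (Y b)) := by
        simp only [mem_filter, mem_univ, true_and, not_not]
        exact subset_N o _ (subset_N o _ (hI.selfY z))
      have hsub : insert z (univ.filter fun b => z ∉ N o (N o (Y b))) ⊆ meet o U z := by
        intro b hb
        refine mem_meet.2 fun a ha => ?_
        rcases mem_insert.1 hb with rfl | hb
        · exact hBU a (hclB a ha)
        · refine mem_insert_of_mem (mem_filter.2 ⟨mem_univ _, fun hcon => ?_⟩)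
          exact (mem_filter.1 hb).2 (mem_N.2 ⟨a, hcon, ha⟩)
      have h1 := card_le_card hsub
      rw [card_insert_of_notMem hz] at h1
      omega
    calc _ = ∑ z, (1 + ((univ.filter fun b => z ∉ N o (N o (Y b))).card : ℤ)) := by
          rw [sum_add_distrib]; simp
      _ ≤ _ := sum_le_sum fun z _ => this z
  have e1 : ∑ b, h o (N o (Y b)) = ∑ b, ((N o (N o (Y b))).card : ℤ)
      - ∑ b, ((N o (Y b)).card : ℤ) := by
    rw [← sum_sub_distrib]; rfl
  unfold G
  rw [e1, hU1]
  have e4 : ∑ a, h o (B a) = ∑ a, h o (N o (X a)) := rfl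
  rw [e4]
  linarith

/-- no arc-minimal counterexample on a nonempty vertex set. -/
theorem no_min [Nonempty V] {o : V → Finset V} (ho : CE o)
    (hmin : ∀ o' : V → Finset V, CE o' → (∑ v, (o v).card) ≤ ∑ v, (o' v).card) : False := by
  classical
  -- outer minimiser
  have hne : (univ.filter fun p : (V → Finset V) × (V → Finset V) => Valid o p.1 p.2).Nonempty := by
    refine ⟨(cl o, cl o), mem_filter.2 ⟨mem_univ _, ⟨fun a => Subset.refl _, fun a => Subset.refl _,
      fun y a hya => ho.1 y a hya⟩⟩⟩
  obtain ⟨⟨B, U⟩, hBU, hopt0⟩ := exists_min_image _ (fun p => G o p.1 p.2) hne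
  have hv : Valid o B U := (mem_filter.1 hBU).2
  have hopt : ∀ B' U', Valid o B' U' → G o B U ≤ G o B' U' := fun B' U' h' =>
    hopt0 (B', U') (mem_filter.2 ⟨mem_univ _, h'⟩)
  obtain ⟨X, Y, hI, hcost⟩ := cand hv hopt
  obtain ⟨B', U', hv', hcost'⟩ := shift ho.1 hI
  have hle : ∀ S : Finset V, h o (N o S) ≤ h o S := by
    intro S
    by_cases hS : N o S = S
    · rw [hS]
    · exact (plan ho hmin S hS).le
  have hclosed : ∀ a, N o (X a) = X a := by
    intro a
    by_contra hne'
    have h1 : ∑ a, h o (N o (X a)) < ∑ a, h o (X a) :=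
      sum_lt_sum (fun i _ => hle _) ⟨a, mem_univ a, plan ho hmin _ hne'⟩
    have h2 : ∑ b, h o (N o (Y b)) ≤ ∑ b, h o (Y b) := sum_le_sum fun i _ => hle _
    have h3 := hopt B' U' hv'
    unfold IC at hcost
    linarith
  -- minimal nonempty closed set
  have hne2 : (univ.filter fun S : Finset V => S.Nonempty ∧ N o S = S).Nonempty := by
    refine ⟨univ, mem_filter.2 ⟨mem_univ _, univ_nonempty, ?_⟩⟩
    exact Subset.antisymm (subset_univ _) (subset_N o _)
  obtain ⟨S, hS, hSmin⟩ := exists_min_image _ (fun S => S.card) hne2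
  obtain ⟨⟨a0, ha0⟩, hSc⟩ := (mem_filter.1 hS).2
  have hout : (o a0).Nonempty := by
    rw [nonempty_iff_ne_empty]
    intro he
    have := ho.2 a0
    unfold Fv at this
    rw [he] at this
    simp [N] at this
  obtain ⟨b, hb⟩ := hout
  have hbS : b ∈ S := by
    rw [← hSc]; exact mem_N.2 ⟨a0, ha0, mem_cl.2 (Or.inr hb)⟩
  have hXS : N o (X b ∩ S) = X b ∩ S := by
    apply Subset.antisymm _ (subset_N o _)
    intro u hu
    rw [mem_inter]
    constructor
    · rw [← hclosed b]; exact N_mono o inter_subset_left hu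
    · rw [← hSc]; exact N_mono o inter_subset_right hu
  have hcard := hSmin (X b ∩ S) (mem_filter.2 ⟨mem_univ _, ⟨b, mem_inter.2 ⟨hI.selfX b, hbS⟩⟩, hXS⟩)
  have heq : X b ∩ S = S := eq_of_subset_of_card_le inter_subset_right hcard
  have ha0X : a0 ∈ X b := by
    have : a0 ∈ X b ∩ S := by rw [heq]; exact ha0
    exact (mem_inter.1 this).1
  have hab : b ≠ a0 := by
    rintro rfl
    exact ho.1 b b hb (self_mem_cl o b)
  exact hI.orth b a0 hab (subset_N o _ ha0X) (mem_N.2 ⟨a0, hI.selfY a0, mem_cl.2 (Or.inr hb)⟩)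

/-- there is no counterexample. -/
theorem no_CE [Nonempty V] (o : V → Finset V) : ¬ CE o := by
  classical
  intro ho
  obtain ⟨o1, h1, h2⟩ := exists_min_image (univ.filter fun o : V → Finset V => CE o)
    (fun o => ∑ v, (o v).card) ⟨o, mem_filter.2 ⟨mem_univ _, ho⟩⟩
  exact no_min (mem_filter.1 h1).2 fun o' ho' => h2 o' (mem_filter.2 ⟨mem_univ _, ho'⟩)

/-- **Seymour's second neighbourhood conjecture.** -/
theorem snc (V : Type*) [Finite V] [Nonempty V] (adj : V → V → Prop)
    (hadj : ∀ u v, adj u v → ¬ adj v u) :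
    ∃ v, {u | adj v u}.ncard ≤ {w | w ≠ v ∧ ¬ adj v w ∧ ∃ u, adj v u ∧ adj u w}.ncard := by
  classical
  have := Fintype.ofFinite V
  by_contra hcon
  push Not at hcon
  let o : V → Finset V := fun v => univ.filter fun u => adj v u
  have hmo : ∀ v u, u ∈ o v ↔ adj v u := fun v u => by simp [o]
  have hori : Ori o := by
    intro a b hab hba
    rw [hmo] at hab
    rcases mem_cl.1 hba with h | h
    · subst h; exact hadj a a hab hab
    · rw [hmo] at h; exact hadj a b hab h
  apply no_CE o
  refine ⟨hori, fun v => ?_⟩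
  have h1 := hcon v
  have e1 : {u | adj v u}.ncard = (o v).card := by
    rw [← Set.ncard_coe_finset]; congr 1; ext u; simp [o]
  have e2 : {w | w ≠ v ∧ ¬ adj v w ∧ ∃ u, adj v u ∧ adj u w}.ncard = (N o (o v) \ o v).card := by
    rw [← Set.ncard_coe_finset]; congr 1; ext w
    simp only [Set.mem_ofPred_eq, coe_sdiff, Set.mem_sdiff, mem_coe, mem_N, hmo, mem_cl]
    constructor
    · rintro ⟨-, h2, u, h3, h4⟩
      exact ⟨⟨u, h3, Or.inr h4⟩, h2⟩
    · rintro ⟨⟨u, h3, h4⟩, h2⟩
      rcases h4 with h4 | h4
      · subst h4; exact absurd h3 h2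
      · exact ⟨fun hwv => hadj v u h3 (hwv ▸ h4), h2, u, h3, h4⟩
  rw [e1, e2, card_sdiff_of_subset (subset_N o _)] at h1
  have h3 := card_le_card (subset_N o (o v))
  unfold Fv
  omega

end Vale.Agent.P038.H268
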