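import Vale.Agent.P038.H268.Base

/-! P038 (helper268), part 2: the gap inequality (787's proof) and `m1 ≤ m2`. -/

namespace Vale.Agent.P038.H268

open Finset

set_option linter.unusedSectionVars false

variable {V : Type*} [Fintype V] [DecidableEq V]

/-- intersection of the rows over the closed in-neighbourhood. -/
noncomputable def meet (o : V → Finset V) (U : V → Finset V) (z : V) : Finset V := by
  classical exact univ.filter fun u => ∀ a, z ∈ cl o a → u ∈ U a

lemma mem_meet {o : V → Finset V} {U : V → Finset V} {z u : V} :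
    u ∈ meet o U z ↔ ∀ a, z ∈ cl o a → u ∈ U a := by
  classical
  simp [meet]

/-- admissible sets -/
def Adm (W P Q : Finset V) (Y : Finset V) : Prop := P ⊆ Y ∧ W ∩ Q ⊆ Y ∧ Y ⊆ Q

/-- constrained minimum -/
noncomputable def km (o : V → Finset V) (P Q W : Finset V) : ℕ :=
  sInf {m : ℕ | ∃ Y, Adm W P Q Y ∧ (h o Y).toNat = m}

lemma km_spec (o : V → Finset V) {P Q : Finset V} (hPQ : P ⊆ Q) (W : Finset V) :
    ∃ Y, Adm W P Q Y ∧ h o Y = km o P Q W := by
  have hne : {m : ℕ | ∃ Y, Adm W P Q Y ∧ (h o Y).toNat = m}.Nonempty :=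
    ⟨_, Q, ⟨hPQ, inter_subset_right, Subset.refl _⟩, rfl⟩
  obtain ⟨Y, hY, hm⟩ := Nat.sInf_mem hne
  refine ⟨Y, hY, ?_⟩
  have : km o P Q W = (h o Y).toNat := hm.symm
  rw [this, Int.toNat_of_nonneg (h_nonneg o Y)]

lemma km_le (o : V → Finset V) {P Q W Y : Finset V} (hY : Adm W P Q Y) :
    (km o P Q W : ℤ) ≤ h o Y := by
  have : km o P Q W ≤ (h o Y).toNat := Nat.sInf_le ⟨Y, hY, rfl⟩
  have h2 := Int.toNat_of_nonneg (h_nonneg o Y)
  omega

lemma km_mono (o : V → Finset V) {P Q W W' : Finset V} (hPQ : P ⊆ Q) (hW : W ⊆ W') :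
    km o P Q W ≤ km o P Q W' := by
  obtain ⟨Y, hY, he⟩ := km_spec o hPQ W'
  have := km_le o (Y := Y) (W := W) (P := P) (Q := Q)
    ⟨hY.1, (inter_subset_inter_right hW).trans hY.2.1, hY.2.2⟩
  omega

/-- exchange step (2). -/
lemma km_exch (o : V → Finset V) {P Q P' Q' W W' : Finset V} {b : V}
    (hPQ : P ⊆ Q) (hPQ' : P' ⊆ Q') (hP : P' ⊆ P) (hQ : Q' ⊆ Q) (hb : b ∈ Q')
    (hW : W ⊆ W') (hWb : ∀ x ∈ W', x ∈ W ∨ x = b) (hbW : b ∈ W') :
    km o P Q W' + km o P' Q' W ≤ km o P' Q' W' + km o P Q W := by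
  obtain ⟨Y, hY, he⟩ := km_spec o hPQ' W'
  obtain ⟨Z, hZ, hz⟩ := km_spec o hPQ W
  have h1 := km_le o (Y := Y ∪ Z) (W := W') (P := P) (Q := Q)
    ⟨hZ.1.trans subset_union_right, by
      intro x hx
      rw [mem_inter] at hx
      rcases hWb x hx.1 with h | h
      · exact mem_union_right _ (hZ.2.1 (mem_inter.2 ⟨h, hx.2⟩))
      · subst h
        exact mem_union_left _ (hY.2.1 (mem_inter.2 ⟨hbW, hb⟩)),
      union_subset (hY.2.2.trans hQ) hZ.2.2⟩
  have h2 := km_le o (Y := Y ∩ Z) (W := W) (P := P') (Q := Q')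
    ⟨subset_inter hY.1 (hP.trans hZ.1), by
      intro x hx
      rw [mem_inter] at hx
      exact mem_inter.2 ⟨hY.2.1 (mem_inter.2 ⟨hW hx.1, hx.2⟩),
        hZ.2.1 (mem_inter.2 ⟨hx.1, hQ hx.2⟩)⟩,
      inter_subset_left.trans hY.2.2⟩
  have h3 := h_submod o Y Z
  omega

/-- layer cake comparison. -/
lemma layer {ι κ : Type*} [Fintype ι] [Fintype κ] (α : ι → ℕ) (γ : κ → ℕ)
    (H : ∀ t : ℕ, (univ.filter fun a => t < α a).card ≤ (univ.filter fun z => t < γ z).card) :
    ∑ a, α a ≤ ∑ z, γ z := by
  classical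
  set T := ∑ a, α a with hT
  have h1 : ∀ a, α a = ∑ t ∈ range T, (if t < α a then 1 else 0) := by
    intro a
    have haT : α a ≤ T := single_le_sum (f := α) (fun i _ => Nat.zero_le _) (mem_univ a)
    rw [← card_filter]
    have : (range T).filter (fun t => t < α a) = range (α a) := by
      ext t; simp only [mem_filter, mem_range]; omega
    rw [this, card_range]
  have h2 : ∀ z, ∑ t ∈ range T, (if t < γ z then 1 else 0) ≤ γ z := by
    intro z
    rw [← card_filter]
    calc ((range T).filter (fun t => t < γ z)).card ≤ (range (γ z)).card := by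
          apply card_le_card; intro t ht; simp only [mem_filter, mem_range] at ht ⊢; exact ht.2
      _ = γ z := card_range _
  calc T = ∑ a, ∑ t ∈ range T, (if t < α a then 1 else 0) := by
        rw [hT]; exact sum_congr rfl (fun a _ => h1 a)
    _ = ∑ t ∈ range T, ∑ a, (if t < α a then 1 else 0) := sum_comm
    _ ≤ ∑ t ∈ range T, ∑ z, (if t < γ z then 1 else 0) := by
        apply sum_le_sum; intro t _
        rw [← card_filter, ← card_filter]; exact H t
    _ = ∑ z, ∑ t ∈ range T, (if t < γ z then 1 else 0) := sum_comm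
    _ ≤ ∑ z, γ z := sum_le_sum (fun z _ => h2 z)

/-- valid pairs for the outer problem. -/
structure Valid (o : V → Finset V) (B U : V → Finset V) : Prop where
  cl_sub : ∀ a, cl o a ⊆ B a
  sub : ∀ a, B a ⊆ U a
  norev : ∀ y a, a ∈ o y → y ∉ U a

/-- outer cost. -/
noncomputable def G (o : V → Finset V) (B U : V → Finset V) : ℤ :=
  ∑ a, h o (B a) + ∑ a, ((U a).card : ℤ) - ∑ z, ((meet o U z).card : ℤ)

section opt

variable {o : V → Finset V} {B U : V → Finset V} (hv : Valid o B U)
  (hopt : ∀ B' U', Valid o B' U' → G o B U ≤ G o B' U')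

include hv hopt

lemma rowR (a : V) {Y : Finset V} (h1 : B a ⊆ Y) (h2 : Y ⊆ U a) : h o (B a) ≤ h o Y := by
  classical
  let B' : V → Finset V := Function.update B a Y
  have hB'a : B' a = Y := Function.update_self ..
  have hB'n : ∀ x, x ≠ a → B' x = B x := fun x hx => Function.update_of_ne hx ..
  have hv' : Valid o B' U := by
    refine ⟨fun x => ?_, fun x => ?_, hv.norev⟩
    · by_cases hx : x = a
      · subst hx; rw [hB'a]; exact (hv.cl_sub x).trans h1
      · rw [hB'n x hx]; exact hv.cl_sub x
    · by_cases hx : x = a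
      · subst hx; rw [hB'a]; exact h2
      · rw [hB'n x hx]; exact hv.sub x
  have := hopt B' U hv'
  unfold G at this
  have e1 : ∑ x, h o (B' x) = h o Y + ∑ x ∈ univ.erase a, h o (B x) := by
    rw [← add_sum_erase univ _ (mem_univ a), hB'a]
    congr 1
    exact sum_congr rfl (fun x hx => by rw [hB'n x (ne_of_mem_erase hx)])
  have e2 : ∑ x, h o (B x) = h o (B a) + ∑ x ∈ univ.erase a, h o (B x) :=
    (add_sum_erase univ _ (mem_univ a)).symm
  rw [e1, e2] at this
  linarith

lemma colC (b : V) {S : Finset V} (hS : ∀ a ∈ S, b ∈ U a ∧ b ∉ B a) :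
    S.card ≤ (univ.filter fun z => b ∈ meet o U z ∧ ∃ a ∈ S, z ∈ cl o a).card := by
  classical
  let U' : V → Finset V := fun a => if a ∈ S then (U a).erase b else U a
  have hU'1 : ∀ a ∈ S, U' a = (U a).erase b := fun a ha => if_pos ha
  have hU'0 : ∀ a, a ∉ S → U' a = U a := fun a ha => if_neg ha
  have hU'sub : ∀ a, U' a ⊆ U a := by
    intro a; by_cases ha : a ∈ S
    · rw [hU'1 a ha]; exact erase_subset _ _
    · rw [hU'0 a ha]
  have hv' : Valid o B U' := by
    refine ⟨hv.cl_sub, fun x => ?_, fun y a hya hy => hv.norev y a hya (hU'sub a hy)⟩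
    by_cases hx : x ∈ S
    · rw [hU'1 x hx]
      intro u hu
      refine mem_erase.2 ⟨?_, hv.sub x hu⟩
      rintro rfl
      exact (hS x hx).2 hu
    · rw [hU'0 x hx]; exact hv.sub x
  have hG := hopt B U' hv'
  unfold G at hG
  have e1 : ∑ a, ((U a).card : ℤ) = ∑ a, ((U' a).card : ℤ) + S.card := by
    have : ∀ a, ((U a).card : ℤ) = (U' a).card + (if a ∈ S then 1 else 0) := by
      intro a; by_cases ha : a ∈ S
      · rw [hU'1 a ha, if_pos ha]
        have := card_erase_add_one (hS a ha).1
        omega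
      · rw [hU'0 a ha, if_neg ha]; simp
    rw [sum_congr rfl (fun a _ => this a), sum_add_distrib]
    congr 1
    rw [sum_ite_mem, univ_inter]; simp
  set Z := univ.filter fun z => b ∈ meet o U z ∧ ∃ a ∈ S, z ∈ cl o a with hZ
  have e2 : ∑ z, ((meet o U z).card : ℤ) ≤ ∑ z, ((meet o U' z).card : ℤ) + Z.card := by
    have : ∀ z, ((meet o U z).card : ℤ) ≤ (meet o U' z).card + (if z ∈ Z then 1 else 0) := by
      intro z
      by_cases hz : z ∈ Z
      · rw [if_pos hz]
        have : meet o U z ⊆ insert b (meet o U' z) := by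
          intro u hu
          by_cases hub : u = b
          · subst hub; exact mem_insert_self _ _
          · refine mem_insert_of_mem (mem_meet.2 fun a ha => ?_)
            have hua := mem_meet.1 hu a ha
            by_cases haS : a ∈ S
            · rw [hU'1 a haS]; exact mem_erase.2 ⟨hub, hua⟩
            · rw [hU'0 a haS]; exact hua
        have h1 := card_le_card this
        have h2 := card_insert_le b (meet o U' z)
        omega
      · rw [if_neg hz]
        have : meet o U z ⊆ meet o U' z := by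
          intro u hu
          refine mem_meet.2 fun a ha => ?_
          have hua := mem_meet.1 hu a ha
          by_cases haS : a ∈ S
          · rw [hU'1 a haS]
            refine mem_erase.2 ⟨?_, hua⟩
            rintro rfl
            exact hz (mem_filter.2 ⟨mem_univ _, hu, a, haS, ha⟩)
          · rw [hU'0 a haS]; exact hua
        have h1 := card_le_card this
        simp only [add_zero]; exact_mod_cast h1
    calc ∑ z, ((meet o U z).card : ℤ) ≤ ∑ z, (((meet o U' z).card : ℤ) + (if z ∈ Z then 1 else 0)) :=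
          sum_le_sum (fun z _ => this z)
      _ = ∑ z, ((meet o U' z).card : ℤ) + Z.card := by
          rw [sum_add_distrib]; congr 1; rw [sum_ite_mem, univ_inter]; simp
  have : (S.card : ℤ) ≤ Z.card := by linarith
  exact_mod_cast this

/-- (R') for the meets. -/
lemma meetR (z : V) {Y : Finset V} (h1 : meet o B z ⊆ Y) (h2 : Y ⊆ meet o U z) :
    h o (meet o B z) ≤ h o Y := by
  classical
  have key : ∀ I : Finset V, (∀ a ∈ I, z ∈ cl o a) →
      h o (Y.filter fun u => ∀ a ∈ I, u ∈ B a) ≤ h o Y := by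
    intro I
    induction I using Finset.induction_on with
    | empty => intro _; simp
    | insert a I ha ih =>
      intro hI
      have ih' := ih (fun x hx => hI x (mem_insert_of_mem hx))
      set Y' := Y.filter fun u => ∀ a ∈ I, u ∈ B a with hY'
      have e : (Y.filter fun u => ∀ x ∈ insert a I, u ∈ B x) = Y' ∩ B a := by
        ext u
        simp only [hY', mem_filter, mem_inter, forall_mem_insert]
        tauto
      rw [e]
      have hs := h_submod o Y' (B a)
      have hr := rowR hv hopt a (Y := Y' ∪ B a) subset_union_right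
        (union_subset (by
          intro u hu
          exact mem_meet.1 (h2 ((mem_filter.1 hu).1)) a (hI a (mem_insert_self _ _)))
          (hv.sub a))
      linarith
  have := key (univ.filter fun a => z ∈ cl o a) (fun a ha => (mem_filter.1 ha).2)
  convert this using 2
  ext u
  simp only [mem_filter, mem_univ, true_and]
  constructor
  · intro hu
    exact ⟨h1 hu, fun a ha => mem_meet.1 hu a ha⟩
  · rintro ⟨_, hu⟩
    exact mem_meet.2 hu

/-- **787's gap inequality.** -/
theorem gap : ∑ a, h o (U a) - ∑ a, h o (B a) ≤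
    ∑ z, h o (meet o U z) - ∑ z, h o (meet o B z) := by
  classical
  let e := Fintype.equivFin V
  let n := Fintype.card V
  let W : ℕ → Finset V := fun i => univ.filter fun v => ((e v : Fin _) : ℕ) < i
  have hWmono : ∀ i, W i ⊆ W (i + 1) := by
    intro i v hv'; simp only [W, mem_filter, mem_univ, true_and] at hv' ⊢; omega
  have hW0 : W 0 = ∅ := by ext v; simp [W]
  have hWn : W n = univ := by
    ext v; simp only [W, mem_filter, mem_univ, true_and, iff_true]; exact (e v).2
  have hMsub : ∀ z, meet o B z ⊆ meet o U z := fun z u hu =>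
    mem_meet.2 fun a ha => hv.sub a (mem_meet.1 hu a ha)
  -- telescoping
  have tel : ∀ P Q : Finset V, P ⊆ Q → (∀ Y, P ⊆ Y → Y ⊆ Q → h o P ≤ h o Y) →
      h o Q - h o P = ∑ i ∈ range n, ((km o P Q (W (i + 1)) : ℤ) - km o P Q (W i)) := by
    intro P Q hPQ hmin
    rw [sum_range_sub (fun i => (km o P Q (W i) : ℤ))]
    have e1 : (km o P Q (W n) : ℤ) = h o Q := by
      obtain ⟨Y, hY, hh⟩ := km_spec o hPQ (W n)
      have : Y = Q := by
        apply Subset.antisymm hY.2.2
        have := hY.2.1
        rwa [hWn, univ_inter] at this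
      rw [← hh, this]
    have e2 : (km o P Q (W 0) : ℤ) = h o P := by
      obtain ⟨Y, hY, hh⟩ := km_spec o hPQ (W 0)
      have h1 := hmin Y hY.1 hY.2.2
      have h2 := km_le o (Y := P) (W := W 0) (P := P) (Q := Q)
        ⟨Subset.refl _, by rw [hW0, empty_inter]; exact empty_subset _, hPQ⟩
      omega
    rw [e1, e2]
  have t1 : ∑ a, h o (U a) - ∑ a, h o (B a) =
      ∑ i ∈ range n, ∑ a, ((km o (B a) (U a) (W (i + 1)) : ℤ) - km o (B a) (U a) (W i)) := by
    rw [sum_comm, ← sum_sub_distrib]
    exact sum_congr rfl fun a _ => tel _ _ (hv.sub a) fun Y h1 h2 => rowR hv hopt a h1 h2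
  have t2 : ∑ z, h o (meet o U z) - ∑ z, h o (meet o B z) =
      ∑ i ∈ range n, ∑ z, ((km o (meet o B z) (meet o U z) (W (i + 1)) : ℤ)
        - km o (meet o B z) (meet o U z) (W i)) := by
    rw [sum_comm, ← sum_sub_distrib]
    exact sum_congr rfl fun z _ => tel _ _ (hMsub z) fun Y h1 h2 => meetR hv hopt z h1 h2
  rw [t1, t2]
  apply sum_le_sum
  intro i hi
  have hin : i < n := mem_range.1 hi
  let b : V := e.symm ⟨i, hin⟩
  have heb : ((e b : Fin _) : ℕ) = i := by simp [b]
  have hWb : ∀ x ∈ W (i + 1), x ∈ W i ∨ x = b := by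
    intro x hx
    simp only [W, mem_filter, mem_univ, true_and] at hx ⊢
    rcases Nat.lt_or_ge (e x : ℕ) i with h | h
    · exact Or.inl h
    · right
      have : e x = ⟨i, hin⟩ := Fin.ext (by show (e x : ℕ) = i; omega)
      rw [← e.symm_apply_apply x, this]
  have hbW : b ∈ W (i + 1) := by
    simp only [W, mem_filter, mem_univ, true_and]; omega
  let α : V → ℕ := fun a => km o (B a) (U a) (W (i + 1)) - km o (B a) (U a) (W i)
  let γ : V → ℕ := fun z => km o (meet o B z) (meet o U z) (W (i + 1))
    - km o (meet o B z) (meet o U z) (W i)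
  have hα : ∀ a, ((km o (B a) (U a) (W (i + 1)) : ℤ) - km o (B a) (U a) (W i)) = α a := by
    intro a
    have := km_mono o (P := B a) (Q := U a) (hv.sub a) (hWmono i)
    simp only [α]; omega
  have hγ : ∀ z, ((km o (meet o B z) (meet o U z) (W (i + 1)) : ℤ)
      - km o (meet o B z) (meet o U z) (W i)) = γ z := by
    intro z
    have := km_mono o (P := meet o B z) (Q := meet o U z) (hMsub z) (hWmono i)
    simp only [γ]; omega
  rw [sum_congr rfl (fun a _ => hα a), sum_congr rfl (fun z _ => hγ z)]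
  have hα0 : ∀ a, 0 < α a → b ∈ U a ∧ b ∉ B a := by
    intro a ha
    by_contra hcon
    have : km o (B a) (U a) (W (i + 1)) ≤ km o (B a) (U a) (W i) := by
      obtain ⟨Y, hY, hh⟩ := km_spec o (hv.sub a) (W i)
      have := km_le o (Y := Y) (W := W (i + 1)) (P := B a) (Q := U a)
        ⟨hY.1, by
          intro x hx
          rw [mem_inter] at hx
          rcases hWb x hx.1 with h | h
          · exact hY.2.1 (mem_inter.2 ⟨h, hx.2⟩)
          · subst h
            by_cases hbB : b ∈ B a
            · exact hY.1 hbB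
            · exact absurd ⟨hx.2, hbB⟩ hcon, hY.2.2⟩
      omega
    simp only [α] at ha; omega
  have main := layer α γ (fun t => by
    have hC := colC hv hopt b (S := univ.filter fun a => t < α a) (fun a ha =>
      hα0 a (lt_of_le_of_lt (Nat.zero_le _) (mem_filter.1 ha).2))
    refine hC.trans (card_le_card ?_)
    intro z hz
    obtain ⟨-, hbz, a, ha, hza⟩ := mem_filter.1 hz
    refine mem_filter.2 ⟨mem_univ _, ?_⟩
    have hta := (mem_filter.1 ha).2
    have hx := km_exch o (P := B a) (Q := U a) (P' := meet o B z) (Q' := meet o U z)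
      (W := W i) (W' := W (i + 1)) (b := b) (hv.sub a) (hMsub z)
      (fun u hu => mem_meet.1 hu a hza) (fun u hu => mem_meet.1 hu a hza) hbz
      (hWmono i) hWb hbW
    simp only [α, γ] at hta ⊢; omega)
  exact_mod_cast main

end opt

end Vale.Agent.P038.H268
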